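import Vale.Agent.P078.Sing.Approx

/-! The `O(ε⁻²)` so-paving bound for MASAs approximable by semifinite intermediate algebras. -/

universe u

theorem Vale.Agent.Results.P078.ApproximablePaving.result :
    (∃ C : ℝ, ∀ (H : Type u) [NormedAddCommGroup H] [InnerProductSpace ℂ H] [CompleteSpace H]
      (S : Vale.Agent.P078.Sing.Masa H) (x : H →L[ℂ] H) (ε : ℝ),
      Vale.Agent.P078.Sing.Approximable S → x ∈ S.M → IsSelfAdjoint x → 0 < ε → ε < 1 →
        ∀ r : ℕ, C / ε ^ 2 ≤ r → Vale.Agent.P078.Sing.SoPavable S x ε r) ∧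
    (∀ (H : Type u) [NormedAddCommGroup H] [InnerProductSpace ℂ H] [CompleteSpace H]
      (T : Vale.Agent.P078.Semi.Semifinite H),
      Vale.Agent.P078.Sing.Approximable (Vale.Agent.P078.Sing.ofSemifinite T)) ∧
    ∀ (H : Type u) [NormedAddCommGroup H] [InnerProductSpace ℂ H] [CompleteSpace H]
      (S : Vale.Agent.P078.Sing.Masa H),
      Vale.Agent.P078.Sing.NoNormalCentral S → Vale.Agent.P078.Sing.Approximable S :=
  ⟨Vale.Agent.P078.Sing.approximable_paving,
    fun _ _ _ _ T => Vale.Agent.P078.Sing.approximable_semifinite T,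
    fun _ _ _ _ _ h => Vale.Agent.P078.Sing.approximable_of_noNormalCentral h⟩
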