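import Vale.Agent.P078.Main
import Vale.Agent.P078.Lower

/-! The growth of the so-paving number of diffuse maximal abelian subalgebras of `B(H)`. -/

theorem Vale.Agent.Results.P078.DiffuseMasaGrowth.result {H : Type*} [NormedAddCommGroup H]
    [InnerProductSpace ℂ H] [CompleteSpace H] [Nontrivial H]
    {A : StarSubalgebra ℂ (H →L[ℂ] H)} (hA : Vale.Agent.P078.IsMasa A)
    (hd : Vale.Agent.P078.IsDiffuse A) (ε : ℝ) (r : ℕ) :
    (1 < ε * r → ∀ x : H →L[ℂ] H, IsSelfAdjoint x → Vale.Agent.P078.SoPavable A x ε r) ∧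
      ((∀ x : H →L[ℂ] H, IsSelfAdjoint x → Vale.Agent.P078.SoPavable A x ε r) → 1 ≤ ε * r) :=
  ⟨fun hr _ hx => Vale.Agent.P078.soPavable_of_diffuse hA hd hx hr,
    fun h => Vale.Agent.P078.le_mul_of_soPavable hA hd h⟩
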