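import Vale.Agent.P078.Sing.Main

/-! The `O(1/ε)` so-paving bound for MASAs without normal central functionals, in any type. -/

universe u

theorem Vale.Agent.Results.P078.SingularPaving.result :
    ∃ C : ℝ, ∀ (H : Type u) [NormedAddCommGroup H] [InnerProductSpace ℂ H] [CompleteSpace H]
      (S : Vale.Agent.P078.Sing.Masa H) (x : H →L[ℂ] H) (ε : ℝ),
      Vale.Agent.P078.Sing.NoNormalCentral S → x ∈ S.M → IsSelfAdjoint x → 0 < ε → ε < 1 →
        ∀ r : ℕ, C / ε ≤ r → Vale.Agent.P078.Sing.SoPavable S x ε r :=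
  Vale.Agent.P078.Sing.singular_paving
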